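import Vale.Agent.Lib.P037.AltMain

/-!
P037 (polynomial ordered binary matrix removal): all families settled so far, in one statement.
(1) Blow-up principle: repeating rows and columns of a pattern preserves the conjecture.
(2) All `k × k` patterns with a `2 × 2` block structure (for `k = 2`: all sixteen patterns).
(3) All `k × k` patterns with two complementary column blocks, `H(i,j) = r i XOR [p ≤ j]`
    with `r` arbitrary (arbitrarily many alternations of the rows), and their transposes.
-/

namespace Vale.Agent.Results.P037.AAllFamilies

open Vale.Agent.Lib.P037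

theorem result :
    (∀ (k k' : ℕ) (H : Fin k → Fin k → Bool) (f g : Fin k' → Fin k),
      Monotone f → Function.Surjective f → Monotone g → Function.Surjective g →
      PolyRemoval H → PolyRemoval (fun i j => H (f i) (g j))) ∧
    (∀ (k : ℕ) (H0 : Fin 2 → Fin 2 → Bool) (f g : Fin k → Fin 2),
      Monotone f → Function.Surjective f → Monotone g → Function.Surjective g →
      PolyRemoval (fun i j => H0 (f i) (g j))) ∧
    (∀ (k : ℕ) (r : Fin k → Bool) (p : ℕ), 0 < p → p < k →
      PolyRemoval (fun i j : Fin k => xor (r i) (decide (p ≤ j.val))) ∧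
      PolyRemoval (fun i j : Fin k => xor (r j) (decide (p ≤ i.val)))) := by
  refine ⟨?_, ?_, ?_⟩
  · intro k k' H f g hf hfs hg hgs h
    rw [← polyRemovalR_iff] at h ⊢
    exact polyRemovalR_blow H h k' k' f g hf hfs hg hgs
  · intro k H0 f g hf hfs hg hgs
    exact polyRemoval_block2 k _ H0 f g hf hfs hg hgs (fun _ _ => rfl)
  · intro k r p hp0 hpk
    have h := polyRemoval_twoBlocks k r p hp0 hpk
    exact ⟨h, polyRemoval_tr _ h⟩

end Vale.Agent.Results.P037.AAllFamilies
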